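import Vale.Agent.P106.G.Int
import Vale.Agent.P106.A.Vop

/-! # The endpoints of the frequency localized estimate: p = 2 without loss, and p arbitrary with loss one -/

open MeasureTheory Complex Set Filter
open scoped ENNReal NNReal ContDiff FourierTransform SchwartzMap Topology

set_option linter.all false

namespace Vale.Agent.P106.G.LSm

open Vale.Agent.P117 Vale.Agent.P106

theorem plinvE {f : E3 → ℂ} (hf : Integrable f) (hfm : Measurable f) :
    ∫⁻ ξ, ‖𝓕⁻ f ξ‖ₑ ^ 2 ≤ ∫⁻ x, ‖f x‖ₑ ^ 2 := by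
  have h1 := lintegral_sq_fourier_le (hf.comp_neg) (hfm.comp measurable_neg)
  rw [← Real.fourierInv_eq_fourier_comp_neg] at h1
  refine h1.trans (le_of_eq ?_)
  exact lintegral_neg_eq_self (fun x => ‖f x‖ₑ ^ 2)

/-- the frequency localized evolution in the two notations -/
theorem evo_eq (T : ℝ) (f : E3 → ℂ) :
    (fun ξ : E3 => cexp (2 * Real.pi * I * (T * ‖ξ‖ : ℝ)) * (X0 ξ * 𝓕 f ξ)) = fun ξ => wm1 X0 T ξ * 𝓕 f ξ := by
  ext ξ
  unfold wm1
  ring

/-- fixed time bound with the sharp growth for bounded functions -/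
theorem fixed_time : ∃ C : ℝ, 0 ≤ C ∧ ∀ (P T : ℝ) (f : E3 → ℂ), 1 ≤ P → 1 ≤ T → Adm volume f →
    ∫⁻ x : E3, ‖𝓕⁻ (fun ξ => wm1 X0 T ξ * 𝓕 f ξ) x‖ₑ ^ P ≤
      ENNReal.ofReal ((C * T * nrm (ENNReal.ofReal P) f volume) ^ P) := by
  obtain ⟨C1, hC1, h1⟩ := kw3_L1
  obtain ⟨C2, hC2, h2⟩ := KE_L1
  obtain ⟨A, hA, hb⟩ := bump_of_compact contDiff_th0 (fun t ht => th0_supp ht) 4
  set k1 : ℝ := ∫ x, ‖K1 x‖ with hk1
  have hk10 : 0 ≤ k1 := integral_nonneg fun _ => norm_nonneg _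
  have hk1e : ∫⁻ x, ‖K1 x‖ₑ ≤ ENNReal.ofReal k1 := by
    rw [hk1, ofReal_integral_norm_eq_lintegral_enorm K1.integrable]
  refine ⟨C1 * A * k1 + C2, by positivity, ?_⟩
  intro P T f hP hT hf
  have hT0 : 0 < T := by linarith
  have hP0 : 0 < P := by linarith
  have hTm : T ∈ Icc T (2 * T) := ⟨le_rfl, by linarith⟩
  have hP1 : (1:ℝ≥0∞) ≤ ENNReal.ofReal P := by
    rw [← ENNReal.ofReal_one]; exact ENNReal.ofReal_le_ofReal hP
  obtain ⟨g1, g2, g3⟩ := f1_props hf
  have n0 : 0 ≤ nrm (ENNReal.ofReal P) f volume := nrm_nonneg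
  have hn1 := nrm_cv_le K1.continuous K1.integrable hk10 hk1e hf hP1
  set u1 : E3 → ℂ := cv (fun x : E3 => kw3 T th0 T (‖x‖ ^ 2)) (cv K1 f) with hu1
  set u2 : E3 → ℂ := cv (KE T T) f with hu2
  have hWc : Continuous (fun x : E3 => kw3 T th0 T (‖x‖ ^ 2)) := (continuous_kw3 hb hT0 T).comp (by fun_prop)
  have hc1 : Continuous u1 := continuous_cv hWc (fun x => norm_kw3_le hb hT0 T _) g1.int
  have hESi := integrable_ES hT0 (le_refl T)
  have hKc : Continuous (KE T T) := continuous_fourierInv hESi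
  have hc2 : Continuous u2 := continuous_cv hKc (fun x => norm_fourierInv_le _ x) hf.int
  have e0 : 𝓕⁻ (fun ξ => wm1 X0 T ξ * 𝓕 f ξ) = fun x => u1 x - u2 x := by
    ext x
    rw [V_identity hT0 hTm hf x, div_self hT0.ne', Real.one_rpow, Complex.ofReal_one, one_mul]
  have b1 : eLpNorm u1 (ENNReal.ofReal P) volume ≤
      ENNReal.ofReal (C1 * A * T * (k1 * nrm (ENNReal.ofReal P) f volume)) := by
    refine (young_L1 hWc.measurable g1.meas _ hP1).trans ?_
    rw [ENNReal.ofReal_mul (by positivity)]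
    gcongr
    · exact h1 T hT A th0 hb T hTm
    · rw [← g1.ofReal_nrm hP1]
      exact ENNReal.ofReal_le_ofReal hn1
  have b2 : eLpNorm u2 (ENNReal.ofReal P) volume ≤
      ENNReal.ofReal (C2 * T * nrm (ENNReal.ofReal P) f volume) := by
    refine (young_L1 hKc.measurable hf.meas _ hP1).trans ?_
    rw [ENNReal.ofReal_mul (by positivity)]
    gcongr
    · exact h2 T T hT hTm
    · rw [hf.ofReal_nrm hP1]
  have b3 : eLpNorm (𝓕⁻ (fun ξ => wm1 X0 T ξ * 𝓕 f ξ)) (ENNReal.ofReal P) volume ≤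
      ENNReal.ofReal ((C1 * A * k1 + C2) * T * nrm (ENNReal.ofReal P) f volume) := by
    rw [e0]
    refine (eLpNorm_sub_le hc1.aestronglyMeasurable hc2.aestronglyMeasurable hP1).trans ?_
    refine (add_le_add b1 b2).trans ?_
    rw [← ENNReal.ofReal_add (by positivity) (by positivity)]
    apply ENNReal.ofReal_le_ofReal
    apply le_of_eq
    ring
  rw [eLpNorm_eq_lintegral_rpow_enorm_toReal (by simp; linarith) ENNReal.ofReal_ne_top,
    ENNReal.toReal_ofReal hP0.le] at b3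
  have b4 := ENNReal.rpow_le_rpow b3 hP0.le
  rw [← ENNReal.rpow_mul, one_div, inv_mul_cancel₀ hP0.ne', ENNReal.rpow_one,
    ENNReal.ofReal_rpow_of_nonneg (by positivity) hP0.le] at b4
  exact b4

/-- **endpoint**: the localized estimate with loss one for every exponent -/
theorem StGL_one {P : ℝ} (hP : 1 ≤ P) : StGL P 1 X0 := by
  obtain ⟨C, hC, h⟩ := fixed_time
  have hP0 : 0 < P := by linarith
  refine ⟨(2 * C) ^ P, by positivity, ?_⟩
  intro R f hR hf
  have hR0 : 0 < R := by linarith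
  have n0 : 0 ≤ nrm (ENNReal.ofReal P) f volume := nrm_nonneg
  simp_rw [evo_eq]
  have h1 : ∀ t ∈ Icc R (2 * R), ∫⁻ x : E3, ‖𝓕⁻ (fun ξ => wm1 X0 t ξ * 𝓕 f ξ) x‖ₑ ^ P ≤
      ENNReal.ofReal ((C * (2 * R) * nrm (ENNReal.ofReal P) f volume) ^ P) := by
    intro t ht
    have ht1 : 1 ≤ t := le_trans hR ht.1
    refine (h P t f hP ht1 hf).trans ?_
    apply ENNReal.ofReal_le_ofReal
    apply Real.rpow_le_rpow (by positivity) _ hP0.le
    have := ht.2
    gcongr
  refine (setLIntegral_mono' measurableSet_Icc h1).trans ?_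
  rw [setLIntegral_const, Real.volume_Icc, nrm_pow hP hf, ← ENNReal.ofReal_mul (by positivity),
    ← ENNReal.ofReal_mul (by positivity)]
  apply ENNReal.ofReal_le_ofReal
  apply le_of_eq
  have e1 : 2 * R - R = R := by ring
  rw [e1, show C * (2 * R) * nrm (ENNReal.ofReal P) f volume = (2 * C) * R * nrm (ENNReal.ofReal P) f volume by ring,
    Real.mul_rpow (by positivity) n0, Real.mul_rpow (by positivity) hR0.le, one_mul, Real.rpow_add hR0, Real.rpow_one]
  ring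

/-- **endpoint**: the localized estimate for p = 2 without loss -/
theorem StGL_two : StGL 2 0 X0 := by
  obtain ⟨B, hB, hX⟩ : ∃ B : ℝ, 0 ≤ B ∧ ∀ ξ : E3, ‖X0 ξ‖ ≤ B := by
    obtain ⟨B, hB⟩ := contDiff_X0.continuous.bounded_above_of_compact_support compact_X0
    exact ⟨B, (norm_nonneg _).trans (hB 0), hB⟩
  refine ⟨B ^ 2, by positivity, ?_⟩
  intro R f hR hf
  have hR0 : 0 < R := by linarith
  have h1 : ∀ t ∈ Icc R (2 * R), ∫⁻ x : E3, ‖𝓕⁻ (fun ξ : E3 => cexp (2 * Real.pi * I * (t * ‖ξ‖ : ℝ)) * (X0 ξ * 𝓕 f ξ)) x‖ₑ ^ (2:ℝ) ≤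
      ENNReal.ofReal (B ^ 2) * ∫⁻ x, ‖f x‖ₑ ^ (2:ℝ) := by
    intro t ht
    simp only [ENNReal.rpow_ofNat]
    rw [evo_eq]
    have hi : Integrable (fun ξ : E3 => wm1 X0 t ξ * 𝓕 f ξ) := by
      apply (integrable_wm1 X0 contDiff_X0 compact_X0 t).mul_bdd (c := ∫ v, ‖f v‖) (continuous_fourier hf.int).aestronglyMeasurable
      filter_upwards with x
      exact norm_fourier_le f x
    have hc : Continuous (fun ξ : E3 => wm1 X0 t ξ * 𝓕 f ξ) := by
      have h2 : Continuous (wm1 X0 t : E3 → ℂ) := by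
        have := contDiff_X0.continuous
        unfold wm1
        fun_prop
      exact h2.mul (continuous_fourier hf.int)
    refine (plinvE hi hc.measurable).trans ?_
    calc ∫⁻ ξ, ‖wm1 X0 t ξ * 𝓕 f ξ‖ₑ ^ 2 ≤ ∫⁻ ξ, ENNReal.ofReal (B ^ 2) * ‖𝓕 f ξ‖ₑ ^ 2 := by
          refine lintegral_mono fun ξ => ?_
          simp only
          rw [enorm_mul, mul_pow]
          gcongr
          rw [← ofReal_norm, norm_wm1, ← ENNReal.ofReal_pow (norm_nonneg _)]
          apply ENNReal.ofReal_le_ofReal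
          have := hX ξ
          have := norm_nonneg (X0 ξ)
          gcongr
      _ = ENNReal.ofReal (B ^ 2) * ∫⁻ ξ, ‖𝓕 f ξ‖ₑ ^ 2 := lintegral_const_mul' _ _ ENNReal.ofReal_ne_top
      _ ≤ _ := mul_le_mul_right (lintegral_sq_fourier_le hf.int hf.meas) _
  refine (setLIntegral_mono' measurableSet_Icc h1).trans ?_
  rw [setLIntegral_const, Real.volume_Icc, zero_mul, zero_add, Real.rpow_one, mul_right_comm,
    ← ENNReal.ofReal_mul (by positivity)]
  have e1 : 2 * R - R = R := by ring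
  rw [e1]

end Vale.Agent.P106.G.LSm
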