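import Vale.Agent.P106.LS.Ends

/-! # Reduction of the local smoothing estimate to one critical exponent -/

open MeasureTheory Complex Set Filter
open scoped ENNReal NNReal ContDiff FourierTransform SchwartzMap Topology

set_option linter.all false

namespace Vale.Agent.P106.G.LSm

open Vale.Agent.P117 Vale.Agent.P106

/-- the localized estimate at `p0` with every positive loss gives `(LS_{p,α})` for `2 < p ≤ p0` and every `α > 0` -/
theorem LS_low {p0 : ℝ} (h : ∀ a : ℝ, 0 < a → StGL p0 a X0) {p α : ℝ} (hp : 2 < p) (hp' : p ≤ p0)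
    (hα : 0 < α) : LpgFin.LS p α := by
  rcases hp'.eq_or_lt with h1 | h1
  · subst h1
    exact LpgFin.LS_of_StGL hp (half_pos hα) (half_lt_self hα) (h _ (half_pos hα))
  have hp0 : 0 < p := by linarith
  have hp00 : 0 < p0 := by linarith
  have e1 : 1 / p0 < 1 / p := one_div_lt_one_div_of_lt hp0 h1
  have e2 : 1 / p < 1 / 2 := one_div_lt_one_div_of_lt (by norm_num) hp
  set θ : ℝ := (1 / 2 - 1 / p) / (1 / 2 - 1 / p0) with hθ
  have hd : 0 < 1 / 2 - 1 / p0 := by linarith
  have hθ0 : 0 < θ := div_pos (by linarith) hd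
  have hθ1 : θ < 1 := by rw [hθ, div_lt_one hd]; linarith
  have hθe : θ * (1 / 2 - 1 / p0) = 1 / 2 - 1 / p := by rw [hθ, div_mul_cancel₀ _ hd.ne']
  have h2 := interp_GL contDiff_X0.continuous compact_X0 (P0 := 2) (P1 := p0) (P := p) (a0 := 0) (a1 := α / 2)
    (by norm_num) (by linarith) hθ0 hθ1 (by
      have : θ / p0 = θ * (1 / p0) := by ring
      rw [this]
      linarith) StGL_two (h _ (half_pos hα))
  have h3 : (1 - θ) * 0 + θ * (α / 2) = θ * (α / 2) := by ring
  rw [h3] at h2
  refine LpgFin.LS_of_StGL hp (by positivity) ?_ h2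
  have : θ * (α / 2) ≤ 1 * (α / 2) := by gcongr
  linarith

/-- the localized estimate at `p0` with every positive loss gives `(LS_{p,α})` for `p ≥ p0` and every `α > 1 - p0/p` -/
theorem LS_high {p0 : ℝ} (hp02 : 2 < p0) (h : ∀ a : ℝ, 0 < a → StGL p0 a X0) {p α : ℝ} (hp : p0 ≤ p)
    (hα : 1 - p0 / p < α) : LpgFin.LS p α := by
  have hp00 : 0 < p0 := by linarith
  have hp0 : 0 < p := by linarith
  rcases hp.eq_or_lt with h1 | h1
  · subst h1
    rw [div_self hp00.ne', sub_self] at hα
    exact LS_low h hp02 le_rfl hα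
  have hr : p0 / p < 1 := by rw [div_lt_one hp0]; exact h1
  have hr0 : 0 < p0 / p := by positivity
  obtain ⟨θ, t1, t2⟩ : ∃ θ : ℝ, 1 - p0 / p < θ ∧ θ < min α 1 := exists_between (lt_min hα (by linarith))
  have hθα : θ < α := lt_of_lt_of_le t2 (min_le_left _ _)
  have hθ1 : θ < 1 := lt_of_lt_of_le t2 (min_le_right _ _)
  have hθ0 : 0 < θ := by linarith
  have e1 : 1 / p < 1 / p0 := one_div_lt_one_div_of_lt hp00 h1
  set s : ℝ := 1 / p - (1 - θ) / p0 with hs
  have hs0 : 0 < s := by
    have a1 : (1 - θ) / p0 < (p0 / p) / p0 := by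
      apply div_lt_div_of_pos_right _ hp00
      linarith
    have a2 : (p0 / p) / p0 = 1 / p := by field_simp
    rw [hs]; linarith
  have hs1 : s < θ := by
    have a1 : (1 - θ) / p0 = 1 / p0 - θ * (1 / p0) := by ring
    have a2 : 1 / p0 < 1 := by rw [div_lt_one hp00]; linarith
    have a3 : θ * (1 / p0) < θ := by nlinarith
    rw [hs, a1]; linarith
  set P1 : ℝ := θ / s with hP1
  have hP10 : 0 < P1 := div_pos hθ0 hs0
  have hP11 : 1 < P1 := by rw [hP1, one_lt_div hs0]; exact hs1
  set a : ℝ := (α - θ) / 2 with ha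
  have ha0 : 0 < a := by rw [ha]; linarith
  have h2 := interp_GL contDiff_X0.continuous compact_X0 (P0 := p0) (P1 := P1) (P := p) (a0 := a) (a1 := 1)
    (by linarith) hP11 hθ0 hθ1 (by
      have b1 : θ / P1 = s := by rw [hP1]; field_simp
      rw [b1, hs]; ring) (h a ha0) (StGL_one hP11.le)
  have h1θ : 0 < 1 - θ := by linarith
  refine LpgFin.LS_of_StGL (by linarith) (by positivity) ?_ h2
  have b2 : (1 - θ) * a ≤ 1 * a := by
    gcongr
    linarith
  rw [ha] at b2 ⊢
  linarith

/-- **the full conjecture follows from the localized estimate at the critical exponent** `p = 3` -/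
theorem full_of_three (h : ∀ a : ℝ, 0 < a → StGL 3 a X0) (p α : ℝ) (hp : 2 < p) (hα : max 0 (1 - 3 / p) < α) :
    LpgFin.LS p α := by
  have hα0 : 0 < α := lt_of_le_of_lt (le_max_left _ _) hα
  have hα1 : 1 - 3 / p < α := lt_of_le_of_lt (le_max_right _ _) hα
  rcases le_total p 3 with h3 | h3
  · exact LS_low h hp h3 hα0
  · exact LS_high (by norm_num) h h3 hα1

/-- the full conjecture follows from the localized estimates at exponents increasing to `3`, with losses tending to `0` -/
theorem full_of_below (h : ∀ p0 a : ℝ, 2 < p0 → p0 < 3 → 0 < a → StGL p0 a X0) (p α : ℝ) (hp : 2 < p)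
    (hα : max 0 (1 - 3 / p) < α) : LpgFin.LS p α := by
  have hα0 : 0 < α := lt_of_le_of_lt (le_max_left _ _) hα
  have hα1 : 1 - 3 / p < α := lt_of_le_of_lt (le_max_right _ _) hα
  have hp0 : 0 < p := by linarith
  rcases lt_or_ge p 3 with h3 | h3
  · exact LS_low (fun a ha => h p a hp h3 ha) hp le_rfl hα0
  · obtain ⟨p0, b1, b2⟩ : ∃ p0 : ℝ, max 2 (3 - α * p + (p - 3)) < p0 ∧ p0 < 3 := by
      apply exists_between
      apply max_lt (by norm_num)
      have : (1 - 3 / p) * p < α * p := by gcongr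
      have e : (1 - 3 / p) * p = p - 3 := by field_simp
      rw [e] at this
      linarith
    have c1 : 2 < p0 := lt_of_le_of_lt (le_max_left _ _) b1
    have c2 : 3 - α * p + (p - 3) < p0 := lt_of_le_of_lt (le_max_right _ _) b1
    refine LS_high c1 (fun a ha => h p0 a c1 b2 ha) (by linarith) ?_
    rw [sub_lt_iff_lt_add, ← sub_lt_iff_lt_add', lt_div_iff₀ hp0]
    nlinarith

/-- `(LS)` at `p0` with every positive loss is the same as the localized estimate with every positive loss -/
theorem StGL_all_iff {p0 : ℝ} (hp : 2 < p0) :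
    (∀ a : ℝ, 0 < a → StGL p0 a X0) ↔ ∀ a : ℝ, 0 < a → LpgFin.LS p0 a :=
  ⟨fun h a ha => LS_low h hp le_rfl ha, fun h a ha => LpgFin.StGL_of_LS (by linarith) (h a ha)⟩

end Vale.Agent.P106.G.LSm
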