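import Vale.Agent.P106.LS.Red

/-! # The final statement: Question 1 of problem P106

The definitions below are, word for word, the definitions of the hand-ins `Results/P106/{General,GeneralWide,Axial}`. -/

open MeasureTheory Complex Set
open scoped ENNReal NNReal FourierTransform SchwartzMap

namespace Vale.Agent.P106.Stmt

/-- three-dimensional euclidean space -/
abbrev R3 := EuclideanSpace ℝ (Fin 3)

/-- the function belongs to the Schwartz space of three variables -/
def IsSchwartz (f : R3 → ℂ) : Prop := ∃ g : 𝓢(R3, ℂ), (g : R3 → ℂ) = f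

/-- the Fourier transform without the factor 2π in the exponent -/
noncomputable def ft (f : R3 → ℂ) (ξ : R3) : ℂ :=
  ∫ x : R3, cexp (-(I * ((inner ℝ x ξ : ℝ) : ℂ))) * f x

/-- the half-wave evolution -/
noncomputable def halfWave (f : R3 → ℂ) (x : R3) (t : ℝ) : ℂ :=
  ((1 / (2 * Real.pi) ^ 3 : ℝ) : ℂ) *
    ∫ ξ : R3, cexp (I * ((inner ℝ x ξ + t * ‖ξ‖ : ℝ) : ℂ)) * ft f ξ

/-- the Fourier multiplier with symbol (1 + |ξ|^2)^(α/2) -/
noncomputable def bessel (α : ℝ) (f : R3 → ℂ) (x : R3) : ℂ :=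
  ((1 / (2 * Real.pi) ^ 3 : ℝ) : ℂ) *
    ∫ ξ : R3, cexp (I * ((inner ℝ x ξ : ℝ) : ℂ)) * ((((1 + ‖ξ‖ ^ 2) ^ (α / 2) : ℝ) : ℂ) * ft f ξ)

/-- the norm of the Lebesgue space of exponent p on the whole space -/
noncomputable def lpNorm (p : ℝ) (f : R3 → ℂ) : ℝ≥0∞ := eLpNorm f (ENNReal.ofReal p) volume

/-- the norm of the Lebesgue space of exponent p on the product of the space and the time interval [1,2] -/
noncomputable def slabNorm (p : ℝ) (u : R3 → ℝ → ℂ) : ℝ≥0∞ :=
  eLpNorm (fun z : R3 × ℝ => u z.1 z.2) (ENNReal.ofReal p) (volume.restrict (univ ×ˢ Icc (1:ℝ) 2))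

/-- the local smoothing estimate (LS_{p,α}) with a finite constant, for all Schwartz functions -/
def LS (p α : ℝ) : Prop :=
  ∃ C : ℝ≥0, ∀ f : R3 → ℂ, IsSchwartz f → slabNorm p (halfWave f) ≤ C * lpNorm p (bessel α f)

/-- **Question 1**: the local smoothing conjecture of Sogge in three space dimensions -/
def Question1 : Prop := ∀ p α : ℝ, 2 < p → max 0 (1 - 3 / p) < α → LS p α

theorem LS_iff (p α : ℝ) : LS p α ↔ Vale.Agent.P106.G.LpgFin.LS p α := Iff.rfl

/-- Question 1 follows from the frequency localized estimate at the critical exponent -/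
theorem question1_of_three (h : ∀ a : ℝ, 0 < a → Vale.Agent.P106.G.StGL 3 a Vale.Agent.P106.X0) : Question1 :=
  fun p α hp hα => Vale.Agent.P106.G.LSm.full_of_three h p α hp hα

/-- Question 1 follows from the frequency localized estimates at all exponents below the critical one -/
theorem question1_of_below
    (h : ∀ p0 a : ℝ, 2 < p0 → p0 < 3 → 0 < a → Vale.Agent.P106.G.StGL p0 a Vale.Agent.P106.X0) : Question1 :=
  fun p α hp hα => Vale.Agent.P106.G.LSm.full_of_below h p α hp hα

/-- the partial target: no loss for `2 < p ≤ p0`, and the interpolated bound for `p ≥ p0` -/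
theorem partial_of {p0 : ℝ} (hp0 : 2 < p0)
    (h : ∀ a : ℝ, 0 < a → Vale.Agent.P106.G.StGL p0 a Vale.Agent.P106.X0) :
    (∀ p α : ℝ, 2 < p → p ≤ p0 → 0 < α → LS p α) ∧ (∀ p α : ℝ, p0 ≤ p → 1 - p0 / p < α → LS p α) :=
  ⟨fun _ _ hp hp' hα => Vale.Agent.P106.G.LSm.LS_low h hp hp' hα,
    fun _ _ hp hα => Vale.Agent.P106.G.LSm.LS_high hp0 h hp hα⟩

end Vale.Agent.P106.Stmt
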